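import Vale.Agent.P068.Ideal

/-!
Generic splitting sets, available when Cantor space is not covered by fewer than continuum
many nowhere dense sets.
-/

namespace Vale.Agent.P068

open Set Filter Topology
open scoped Cardinal

universe u v

/-- Cantor space is not the union of fewer than continuum many nowhere dense sets. -/
def Cov : Prop :=
  ∀ S : Set (Set (ℕ → Bool)), #S < 𝔠 → (∀ A ∈ S, IsNowhereDense A) → ⋃₀ S ≠ univ

/-- `A` is covered by a family indexed by a type of size at most `k`. -/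
def Tiny {α : Type u} (k : Cardinal.{0}) (A : Set α) : Prop :=
  ∃ (I : Type) (f : I → α), #I ≤ k ∧ A ⊆ range f

theorem tiny_mono {α : Type u} {k l : Cardinal.{0}} {A : Set α} (h : k ≤ l) (hA : Tiny k A) :
    Tiny l A := by
  obtain ⟨I, f, hI, hf⟩ := hA
  exact ⟨I, f, hI.trans h, hf⟩

theorem tiny_image {α : Type u} {β : Type v} {k : Cardinal.{0}} {A : Set α} (g : α → β)
    (hA : Tiny k A) : Tiny k (g '' A) := by
  obtain ⟨I, f, hI, hf⟩ := hA
  refine ⟨I, g ∘ f, hI, ?_⟩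
  rw [range_comp]
  exact image_mono hf

theorem tiny_union {α : Type u} {k : Cardinal.{0}} (hk : ℵ₀ ≤ k) {A B : Set α} (hA : Tiny k A)
    (hB : Tiny k B) : Tiny k (A ∪ B) := by
  obtain ⟨I, f, hI, hf⟩ := hA
  obtain ⟨J, g, hJ, hg⟩ := hB
  refine ⟨I ⊕ J, Sum.elim f g, ?_, ?_⟩
  · rw [Cardinal.mk_sum, Cardinal.lift_id, Cardinal.lift_id]
    exact (add_le_add hI hJ).trans (Cardinal.add_eq_self hk).le
  · rintro x (hx | hx)
    · obtain ⟨i, rfl⟩ := hf hx
      exact ⟨Sum.inl i, rfl⟩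
    · obtain ⟨i, rfl⟩ := hg hx
      exact ⟨Sum.inr i, rfl⟩

theorem tiny_singleton {α : Type u} {k : Cardinal.{0}} (hk : ℵ₀ ≤ k) (a : α) : Tiny k {a} :=
  ⟨Unit, fun _ => a, by simp [Cardinal.one_le_aleph0.trans hk],
    by rintro x rfl; exact ⟨(), rfl⟩⟩

theorem tiny_insert {α : Type u} {k : Cardinal.{0}} (hk : ℵ₀ ≤ k) {A : Set α} (hA : Tiny k A)
    (a : α) : Tiny k (insert a A) := by
  rw [insert_eq]
  exact tiny_union hk (tiny_singleton hk a) hA

theorem tiny_iUnion {α : Type u} {k : Cardinal.{0}} (hk : ℵ₀ ≤ k) {J : Type} (hJ : #J ≤ k)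
    (A : J → Set α) (hA : ∀ j, Tiny k (A j)) : Tiny k (⋃ j, A j) := by
  choose I f hI hf using hA
  refine ⟨Σ j, I j, fun p => f p.1 p.2, ?_, ?_⟩
  · rw [Cardinal.mk_sigma]
    exact ((Cardinal.sum_le_sum _ _ hI).trans (Cardinal.sum_const' J k).le).trans
      ((mul_le_mul_left hJ k).trans (Cardinal.mul_eq_self hk).le)
  · intro x hx
    obtain ⟨j, hj⟩ := mem_iUnion.1 hx
    obtain ⟨i, rfl⟩ := hf j hj
    exact ⟨⟨j, i⟩, rfl⟩

theorem isClosed_of_dep (N : ℕ) {p : (ℕ → Bool) → Prop}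
    (h : ∀ x y : ℕ → Bool, (∀ i < N, x i = y i) → p x → p y) : IsClosed {x | p x} := by
  let r : (ℕ → Bool) → (Fin N → Bool) := fun x i => x i
  have e : {x | p x} = r ⁻¹' (r '' {x | p x}) := by
    refine (subset_preimage_image r _).antisymm ?_
    rintro y ⟨x, hx, hxy⟩
    exact h x y (fun i hi => congrFun hxy ⟨i, hi⟩) hx
  rw [e]
  exact (isClosed_discrete _).preimage (continuous_pi fun i => continuous_apply _)

theorem nowhereDense_of_escape {B : Set (ℕ → Bool)} (hB : IsClosed B)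
    (h : ∀ (x : ℕ → Bool) (N : ℕ), ∃ y : ℕ → Bool, (∀ i < N, y i = x i) ∧ y ∉ B) : IsNowhereDense B := by
  rw [hB.isNowhereDense_iff]
  refine eq_empty_of_forall_notMem (fun x hx => ?_)
  choose y hy hyB using h x
  have ht : Tendsto y atTop (𝓝 x) := by
    rw [tendsto_pi_nhds]
    intro i
    exact tendsto_const_nhds.congr'
      ((eventually_gt_atTop i).mono fun N hN => (hy N i hN).symm)
  obtain ⟨N, hN⟩ := (ht.eventually (isOpen_interior.mem_nhds hx)).exists
  exact hyB N (interior_subset hN)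

/-- The first true point of each dyadic block. -/
def firsts (x : ℕ → Bool) : Set ℕ :=
  {n | x n = true ∧ ∀ j, n ∈ blk j → ∀ m < n, m ∈ blk j → x m = false}

theorem sp_firsts (x : ℕ → Bool) : Sp (firsts x) := by
  refine ⟨1, fun j => (ncard_le_one ((blk_finite j).inter_of_right _)).2 ?_⟩
  rintro a ⟨⟨ha, ha'⟩, haj⟩ b ⟨⟨hb, hb'⟩, hbj⟩
  rcases lt_trichotomy a b with h | h | h
  · exact absurd (hb' j hbj a h haj) (by simp [ha])
  · exact h
  · exact absurd (ha' j haj b h hbj) (by simp [hb])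

theorem nd_const {A : Set ℕ} (hA : A.Infinite) (m : ℕ) (b : Bool) :
    IsNowhereDense {x : ℕ → Bool | ∀ n ∈ A, m ≤ n → x n = b} := by
  apply nowhereDense_of_escape
  · simp only [setOf_forall]
    exact isClosed_iInter fun n => isClosed_iInter fun _ => isClosed_iInter fun _ =>
      isClosed_eq (continuous_apply n) continuous_const
  · intro x N
    obtain ⟨n, hn, hn'⟩ := hA.exists_gt (m + N)
    refine ⟨fun i => if i < N then x i else !b, fun i hi => if_pos hi, fun h => ?_⟩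
    have h1 := h n hn (by omega)
    simp [show ¬ n < N by omega] at h1

theorem nd_firsts {A : Set ℕ} (hA : A.Infinite) (m : ℕ) :
    IsNowhereDense {x : ℕ → Bool | ∀ n ∈ A, m ≤ n → n ∉ firsts x} := by
  apply nowhereDense_of_escape
  · simp only [setOf_forall]
    refine isClosed_iInter fun n => isClosed_iInter fun _ => isClosed_iInter fun _ =>
      isClosed_of_dep (n + 1) (fun x y hxy hx hy => hx ⟨?_, ?_⟩)
    · rw [hxy n (by omega)]
      exact hy.1
    · intro j hj l hl hlj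
      rw [hxy l (by omega)]
      exact hy.2 j hj l hl hlj
  · intro x N
    obtain ⟨n, hn, hn'⟩ := hA.exists_gt (m + 2 ^ (N + 1))
    have hN : N < n := by
      have h1 : N + 1 < 2 ^ (N + 1) := Nat.lt_two_pow_self
      omega
    refine ⟨fun i => if i < N then x i else decide (i = n), fun i hi => if_pos hi,
      fun h => h n hn (le_trans (Nat.le_add_right _ _) hn'.le) ⟨?_, ?_⟩⟩
    · simp [show ¬ n < N by omega]
    · intro j hj l hl hlj
      have h1 : 2 ^ (N + 1) < 2 ^ (j + 1) := by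
        have := hj.2
        omega
      rw [Nat.pow_lt_pow_iff_right (by norm_num)] at h1
      have h2 : j < 2 ^ j := Nat.lt_two_pow_self
      have h3 := hlj.1
      simp [show ¬ l < N by omega, show l ≠ n by omega]

theorem nd_block {A : Set ℕ} (hA : ¬ Sp A) (k : ℕ) (b : Bool) :
    IsNowhereDense {x : ℕ → Bool | ∀ j, (A ∩ {n | x n = b} ∩ blk j).ncard ≤ k} := by
  apply nowhereDense_of_escape
  · simp only [setOf_forall]
    refine isClosed_iInter fun j => isClosed_of_dep (2 ^ (j + 1)) (fun x y hxy hx => ?_)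
    have e : A ∩ {n | y n = b} ∩ blk j = A ∩ {n | x n = b} ∩ blk j := by
      ext n
      simp only [mem_inter_iff, mem_setOf_eq]
      constructor <;> rintro ⟨⟨h1, h2⟩, h3⟩
      · exact ⟨⟨h1, by rw [hxy n h3.2]; exact h2⟩, h3⟩
      · exact ⟨⟨h1, by rw [← hxy n h3.2]; exact h2⟩, h3⟩
    rw [e]
    exact hx
  · intro x N
    simp only [Sp, not_exists, not_forall, not_le] at hA
    obtain ⟨j, hj⟩ := hA (k + N)
    refine ⟨fun i => if i < N then x i else b, fun i hi => if_pos hi, fun h => ?_⟩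
    have hfin : ∀ s : Set ℕ, (s ∩ blk j).Finite := fun s => (blk_finite j).inter_of_right s
    have hsub : A ∩ blk j ⊆
        (A ∩ {n | (if n < N then x n else b) = b} ∩ blk j) ∪ ↑(Finset.range N) := by
      intro n hn
      by_cases hnN : n < N
      · exact Or.inr (Finset.mem_range.2 hnN)
      · exact Or.inl ⟨⟨hn.1, by simp [hnN]⟩, hn.2⟩
    have h1 := (ncard_le_ncard hsub ((hfin _).union (Finset.finite_toSet _))).trans
      (ncard_union_le _ _)
    rw [ncard_coe_finset, Finset.card_range] at h1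
    have h2 : (A ∩ {n | (if n < N then x n else b) = b} ∩ blk j).ncard ≤ k := h j
    omega

/-- A generic point for fewer than continuum many sets. -/
theorem exists_generic (hc : Cov) {I : Type} (hI : #I < 𝔠) (A : I → Set ℕ) :
    ∃ x : ℕ → Bool, ∀ i, ((A i).Infinite → (∀ m b, ∃ n ∈ A i, m ≤ n ∧ x n ≠ b) ∧
        ∀ m, ∃ n ∈ A i, m ≤ n ∧ n ∈ firsts x) ∧
      (¬ Sp (A i) → ∀ k b, ∃ j, k < (A i ∩ {n | x n = b} ∩ blk j).ncard) := by
  let S₁ : Set (Set (ℕ → Bool)) := range fun p : {i // (A i).Infinite} × ℕ × Bool =>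
    {x | ∀ n ∈ A p.1.1, p.2.1 ≤ n → x n = p.2.2}
  let S₂ : Set (Set (ℕ → Bool)) := range fun p : {i // (A i).Infinite} × ℕ =>
    {x | ∀ n ∈ A p.1.1, p.2 ≤ n → n ∉ firsts x}
  let S₃ : Set (Set (ℕ → Bool)) := range fun p : {i // ¬ Sp (A i)} × ℕ × Bool =>
    {x | ∀ j, (A p.1.1 ∩ {n | x n = p.2.2} ∩ blk j).ncard ≤ p.2.1}
  have hsmall : ∀ {J K : Type}, #J < 𝔠 → Countable K → #(J × K) < 𝔠 := by
    intro J K hJ hK
    rw [Cardinal.mk_prod, Cardinal.lift_id, Cardinal.lift_id]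
    exact Cardinal.mul_lt_of_lt Cardinal.aleph0_le_continuum hJ
      (Cardinal.mk_le_aleph0.trans_lt Cardinal.aleph0_lt_continuum)
  have hS : #(S₁ ∪ S₂ ∪ S₃ : Set (Set (ℕ → Bool))) < 𝔠 :=
    (Cardinal.mk_union_le _ _).trans_lt (Cardinal.add_lt_of_lt Cardinal.aleph0_le_continuum
      ((Cardinal.mk_union_le _ _).trans_lt (Cardinal.add_lt_of_lt Cardinal.aleph0_le_continuum
        (Cardinal.mk_range_le.trans_lt
          (hsmall ((Cardinal.mk_subtype_le _).trans_lt hI) inferInstance))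
        (Cardinal.mk_range_le.trans_lt
          (hsmall ((Cardinal.mk_subtype_le _).trans_lt hI) inferInstance))))
      (Cardinal.mk_range_le.trans_lt
        (hsmall ((Cardinal.mk_subtype_le _).trans_lt hI) inferInstance)))
  have hnd : ∀ B ∈ S₁ ∪ S₂ ∪ S₃, IsNowhereDense B := by
    rintro B ((⟨⟨i, m, b⟩, rfl⟩ | ⟨⟨i, m⟩, rfl⟩) | ⟨⟨i, k, b⟩, rfl⟩)
    exacts [nd_const i.2 m b, nd_firsts i.2 m, nd_block i.2 k b]
  obtain ⟨x, hx⟩ := (ne_univ_iff_exists_notMem _).1 (hc _ hS hnd)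
  simp only [mem_sUnion, not_exists, not_and] at hx
  refine ⟨x, fun i => ⟨fun hi => ⟨fun m b => ?_, fun m => ?_⟩, fun hi k b => ?_⟩⟩
  · have h := hx _ (Or.inl (Or.inl ⟨⟨⟨i, hi⟩, m, b⟩, rfl⟩))
    simp only [mem_setOf_eq, not_forall] at h
    obtain ⟨n, h1, h2, h3⟩ := h
    exact ⟨n, h1, h2, h3⟩
  · have h := hx _ (Or.inl (Or.inr ⟨⟨⟨i, hi⟩, m⟩, rfl⟩))
    simp only [mem_setOf_eq, not_forall, not_not] at h
    obtain ⟨n, h1, h2, h3⟩ := h
    exact ⟨n, h1, h2, h3⟩
  · have h := hx _ (Or.inr ⟨⟨⟨i, hi⟩, k, b⟩, rfl⟩)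
    simp only [mem_setOf_eq, not_forall, not_le] at h
    exact h

/-- A set splitting fewer than continuum many infinite sets and non-sparse sets. -/
theorem exists_split (hc : Cov) {k : Cardinal.{0}} (hk : k < 𝔠) (S : Set (Set ℕ))
    (h : Tiny k S) : ∃ c : Set ℕ, ∀ A ∈ S,
    (A.Infinite → (A ∩ c).Infinite ∧ (A \ c).Infinite) ∧
    (¬ Sp A → ¬ Sp (A ∩ c) ∧ ¬ Sp (A \ c)) := by
  obtain ⟨I, f, hI, hf⟩ := h
  obtain ⟨x, hx⟩ := exists_generic hc (hI.trans_lt hk) f
  refine ⟨{n | x n = true}, fun A hA => ?_⟩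
  obtain ⟨i, rfl⟩ := hf hA
  obtain ⟨h1, h2⟩ := hx i
  refine ⟨fun hi => ⟨infinite_of_forall_exists_gt fun a => ?_,
    infinite_of_forall_exists_gt fun a => ?_⟩, fun hi => ⟨?_, ?_⟩⟩
  · obtain ⟨n, hn, ha, hb⟩ := (h1 hi).1 (a + 1) false
    exact ⟨n, ⟨hn, by simpa using hb⟩, ha⟩
  · obtain ⟨n, hn, ha, hb⟩ := (h1 hi).1 (a + 1) true
    exact ⟨n, ⟨hn, by simpa using hb⟩, ha⟩
  · rintro ⟨K, hK⟩
    obtain ⟨j, hj⟩ := h2 hi K true
    exact (not_lt.2 (hK j)) hj
  · rintro ⟨K, hK⟩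
    obtain ⟨j, hj⟩ := h2 hi K false
    have e : f i ∩ {n | x n = false} = f i \ {n | x n = true} := by
      ext n; simp
    rw [e] at hj
    exact (not_lt.2 (hK j)) hj

/-- A sparse set splitting fewer than continuum many infinite sets. -/
theorem exists_sparse (hc : Cov) {k : Cardinal.{0}} (hk : k < 𝔠) (S : Set (Set ℕ))
    (h : Tiny k S) : ∃ e : Set ℕ, Sp e ∧
    ∀ A ∈ S, A.Infinite → (A ∩ e).Infinite ∧ (A \ e).Infinite := by
  obtain ⟨I, f, hI, hf⟩ := h
  obtain ⟨x, hx⟩ := exists_generic hc (hI.trans_lt hk) f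
  refine ⟨firsts x, sp_firsts x, fun A hA hi => ?_⟩
  obtain ⟨i, rfl⟩ := hf hA
  obtain ⟨h1, -⟩ := hx i
  refine ⟨infinite_of_forall_exists_gt fun a => ?_, infinite_of_forall_exists_gt fun a => ?_⟩
  · obtain ⟨n, hn, ha, hb⟩ := (h1 hi).2 (a + 1)
    exact ⟨n, ⟨hn, hb⟩, ha⟩
  · obtain ⟨n, hn, ha, hb⟩ := (h1 hi).1 (a + 1) true
    exact ⟨n, ⟨hn, fun h => hb h.1⟩, ha⟩

/-- The continuum hypothesis gives the covering property, by the Baire category theorem. -/
theorem cov_of_ch (ch : Cardinal.continuum.{0} = Cardinal.aleph 1) : Cov := by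
  intro S hS hnd hu
  rw [ch, Cardinal.lt_aleph_one_iff, Cardinal.le_aleph0_iff_set_countable] at hS
  have : Countable S := hS.to_subtype
  obtain ⟨A, hA⟩ := nonempty_interior_of_iUnion_of_closed (f := fun A : S => closure A.1)
    (fun _ => isClosed_closure) (by
      refine eq_univ_of_forall fun x => ?_
      obtain ⟨A, hA, hxA⟩ := mem_sUnion.1 (hu ▸ mem_univ x : x ∈ ⋃₀ S)
      exact mem_iUnion.2 ⟨⟨A, hA⟩, subset_closure hxA⟩)
  exact hA.ne_empty (hnd A.1 A.2)

end Vale.Agent.P068
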