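import Vale.Agent.P068.Build

/-!
A uniform matroid from a final state, and the double ray of copies of it.
-/

namespace Vale.Agent.P068

open Set

/-- What is used of the final state. -/
structure Final where
  s : St
  good : Good s
  goal : ∀ P Q, P ⊆ Q → Goal s P Q
  total : ∀ x : Set ℕ, High s x ∨ High s xᶜ

theorem antichain {s : St} (hs : Good s) {b b' : Set W} (hb : IsB s.G b) (hb' : IsB s.G b')
    (h : b ⊆ b') : b = b' := by
  obtain ⟨g, hg, h1, h2, h3⟩ := hb
  obtain ⟨g', hg', h4, h5, h6⟩ := hb'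
  have e : g = g' := hs.anti g hg g' hg' ((h2.union h4).subset (fun x hx => by
    by_cases hxb : x ∈ b
    · exact Or.inr ⟨h hxb, hx.2⟩
    · exact Or.inl ⟨hx.1, hxb⟩))
  subst e
  have s1 : b \ g ⊆ b' \ g := sdiff_subset_sdiff_left h
  have s2 : g \ b' ⊆ g \ b := sdiff_subset_sdiff_right h
  have c1 := ncard_le_ncard s1 h4
  have c2 := ncard_le_ncard s2 h2
  have e1 : b \ g = b' \ g := eq_of_subset_of_ncard_le s1 (by omega) h4
  have e2 : g \ b' = g \ b := eq_of_subset_of_ncard_le s2 (by omega) h2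
  refine h.antisymm (fun x hx => ?_)
  by_contra hxb
  by_cases hxg : x ∈ g
  · have : x ∈ g \ b' := e2 ▸ ⟨hxg, hxb⟩
    exact this.2 hx
  · have : x ∈ b \ g := e1 ▸ ⟨hx, hxg⟩
    exact hxb this.1

theorem exchange {G : Set (Set W)} {b : Set W} (hb : IsB G b) {f e : W} (hf : f ∈ b)
    (he : e ∉ b) : IsB G (insert e (b \ {f})) := by
  obtain ⟨g, hg, h1, h2, h3⟩ := hb
  have hne : e ≠ f := fun h => he (h ▸ hf)
  set b' := insert e (b \ {f}) with hb'
  refine ⟨g, hg, ?_⟩
  by_cases hfg : f ∈ g <;> by_cases heg : e ∈ g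
  · have a1 : b' \ g = b \ g := by
      ext x
      by_cases x = e <;> by_cases x = f <;> simp_all
    have a2 : g \ b' = insert f ((g \ b) \ {e}) := by
      ext x
      by_cases x = e <;> by_cases x = f <;> simp_all
    refine ⟨a1 ▸ h1, a2 ▸ (h2.sdiff.insert f), ?_⟩
    rw [a1, a2, ncard_exchange (s := g \ b) (by simp [hf]) ⟨heg, he⟩]
    exact h3
  · have a1 : b' \ g = insert e (b \ g) := by
      ext x
      by_cases x = e <;> by_cases x = f <;> simp_all
    have a2 : g \ b' = insert f (g \ b) := by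
      ext x
      by_cases x = e <;> by_cases x = f <;> simp_all
    refine ⟨a1 ▸ h1.insert e, a2 ▸ h2.insert f, ?_⟩
    rw [a1, a2, ncard_insert_of_notMem (by simp [he]) h1,
      ncard_insert_of_notMem (by simp [hf]) h2, h3]
  · have a1 : b' \ g = (b \ g) \ {f} := by
      ext x
      by_cases x = e <;> by_cases x = f <;> simp_all
    have a2 : g \ b' = (g \ b) \ {e} := by
      ext x
      by_cases x = e <;> by_cases x = f <;> simp_all
    refine ⟨a1 ▸ h1.sdiff, a2 ▸ h2.sdiff, ?_⟩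
    rw [a1, a2, ncard_sdiff_singleton_of_mem (s := b \ g) ⟨hf, hfg⟩, ncard_sdiff_singleton_of_mem (s := g \ b) ⟨heg, he⟩,
      h3]
  · have a1 : b' \ g = insert e ((b \ g) \ {f}) := by
      ext x
      by_cases x = e <;> by_cases x = f <;> simp_all
    have a2 : g \ b' = g \ b := by
      ext x
      by_cases x = e <;> by_cases x = f <;> simp_all
    refine ⟨a1 ▸ h1.sdiff.insert e, a2 ▸ h2, ?_⟩
    rw [a1, a2, ncard_exchange (s := b \ g) (by simp [he]) ⟨hf, hfg⟩]
    exact h3

theorem exchange' {G : Set (Set W)} {b : Set W} (hb : IsB G bᶜ) {f e : W} (hf : f ∈ b)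
    (he : e ∉ b) : IsB G (insert e (b \ {f}))ᶜ := by
  have h := exchange hb (f := e) (e := f) he (not_not_intro hf)
  convert h using 1
  ext x
  have hne : e ≠ f := fun hh => he (hh ▸ hf)
  by_cases x = e <;> by_cases x = f <;> simp_all

/-- The uniform matroid with the given bases. -/
def Final.V (F : Final) : Matroid W where
  E := univ
  IsBase b := IsB F.s.G b
  Indep I := ∃ b, IsB F.s.G b ∧ I ⊆ b
  indep_iff' := fun _ => Iff.rfl
  exists_isBase := by
    rcases F.goal ∅ ∅ subset_rfl with ⟨b, h, _⟩ | ⟨b, h, _⟩ | ⟨b, h, _⟩ <;> exact ⟨b, h⟩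
  isBase_exchange := by
    intro B B' hB hB' a ha
    have hne : (B' \ B).Nonempty := by
      rw [nonempty_iff_ne_empty, ne_eq, sdiff_eq_empty]
      exact fun h => ha.2 (by rw [antichain F.good hB' hB h]; exact ha.1)
    obtain ⟨c, hc⟩ := hne
    exact ⟨c, hc, exchange hB ha.1 hc.2⟩
  maximality := by
    intro X _ I hI hIX
    obtain ⟨b0, hb0, hIb0⟩ := hI
    rcases F.goal I X hIX with ⟨b, hb, hbI⟩ | ⟨b, hb, hXb⟩ | ⟨b, hb, hIb, hbX⟩
    · refine ⟨I, subset_rfl, ⟨⟨b0, hb0, hIb0⟩, hIX⟩, fun J hJ hIJ => ?_⟩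
      obtain ⟨⟨b', hb', hJb'⟩, _⟩ := hJ
      have e := antichain F.good hb hb' (hbI.trans (hIJ.trans hJb'))
      exact hJb'.trans (e ▸ hbI)
    · exact ⟨X, hIX, ⟨⟨b, hb, hXb⟩, subset_rfl⟩, fun J hJ _ => hJ.2⟩
    · refine ⟨b, hIb, ⟨⟨b, hb, subset_rfl⟩, hbX⟩, fun J hJ hbJ => ?_⟩
      obtain ⟨⟨b', hb', hJb'⟩, _⟩ := hJ
      have e := antichain F.good hb hb' (hbJ.trans hJb')
      exact e ▸ hJb'
  subset_ground := fun _ _ => subset_univ _

theorem Final.no_full (F : Final) {b : Set W} (hb : IsB F.s.G b) (h : sI b = univ) : False := by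
  rcases adm_of_isB F.good hb with ⟨_, p, _, _, hq⟩ | ⟨h', _⟩
  · exact not_lt_zero (hq _ F.good.seed (by simp [h, sp_empty]))
  · rw [h, compl_univ] at h'
    exact not_high_empty F.good h'

theorem Final.no_empty (F : Final) {b : Set W} (hb : IsB F.s.G b) (h : sI b = ∅) : False := by
  rcases adm_of_isB F.good hb with ⟨h', _⟩ | ⟨_, p, _, _, hq⟩
  · rw [h] at h'
    exact not_high_empty F.good h'
  · exact not_lt_zero (hq _ F.good.seed (by simp [h, sp_empty]))

theorem Final.no_pack (F : Final) (I : ℕ → Set ℕ)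
    (h : ∀ n, ∃ b, IsB F.s.G b ∧ sI b ⊆ I n ∧ sO b ⊆ (I (n + 1))ᶜ) : ¬ High F.s (I 0)ᶜ := by
  suffices key : ∀ r : Ordinal.{0}, ∀ n, ∀ q ∈ F.s.hi, q.2 = r → Sp (q.1 \ (I n)ᶜ) → False by
    rintro ⟨q, hq, hq'⟩
    exact key q.2 0 q hq rfl hq'
  intro r
  induction r using WellFoundedLT.induction with
  | ind r ih =>
    intro n q hq hqr hq'
    obtain ⟨b, hb, hI, hO⟩ := h n
    have hq'' : Sp (q.1 \ (sI b)ᶜ) :=
      sp_mono (sdiff_subset_sdiff_right (compl_subset_compl.2 hI)) hq'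
    rcases adm_of_isB F.good hb with ⟨h1, _⟩ | ⟨_, p, hp, hp', hlt⟩
    · exact not_high_and_compl F.good h1 ⟨q, hq, hq''⟩
    · exact ih p.2 (hqr ▸ hlt q hq hq'') (n + 1) p hp rfl
        (sp_mono (sdiff_subset_sdiff_right hO) hp')

theorem Final.no_cover (F : Final) (I : ℕ → Set ℕ)
    (h : ∀ n, ∃ b, IsB F.s.G b ∧ I n ⊆ sI b ∧ (I (n + 1))ᶜ ⊆ sO b) : ¬ High F.s (I 0) := by
  suffices key : ∀ r : Ordinal.{0}, ∀ n, ∀ q ∈ F.s.hi, q.2 = r → Sp (q.1 \ I n) → False by
    rintro ⟨q, hq, hq'⟩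
    exact key q.2 0 q hq rfl hq'
  intro r
  induction r using WellFoundedLT.induction with
  | ind r ih =>
    intro n q hq hqr hq'
    obtain ⟨b, hb, hI, hO⟩ := h n
    have hq'' : Sp (q.1 \ sI b) := sp_mono (sdiff_subset_sdiff_right hI) hq'
    rcases adm_of_isB F.good hb with ⟨_, p, hp, hp', hlt⟩ | ⟨h1, _⟩
    · refine ih p.2 (hqr ▸ hlt q hq hq'') (n + 1) p hp rfl
        (sp_mono (sdiff_subset_sdiff_right ?_) hp')
      intro m hm
      by_contra hmI
      exact hm (hO hmI)
    · exact not_high_and_compl F.good ⟨q, hq, hq''⟩ h1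

/-- Index of the slab feeding node `k`. -/
def inS (k : ℤ) : ℤ := if 1 ≤ k then k - 1 else k

/-- Index of the slab fed by node `k`. -/
def outS (k : ℤ) : ℤ := if 1 ≤ k then k else k - 1

/-- The elements at node `k`. -/
def phi (k : ℤ) : W → ℤ × ℕ
  | Sum.inl n => (inS k, n)
  | Sum.inr n => (outS k, n)

theorem phi_fst (k : ℤ) (w : W) : (phi k w).1 = k - 1 ∨ (phi k w).1 = k := by
  rcases w with n | n <;> simp only [phi, inS, outS] <;> split_ifs <;> simp

theorem phi_inj (k : ℤ) : Function.Injective (phi k) := by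
  rintro (n | n) (m | m) h <;> simp only [phi, Prod.mk.injEq, inS, outS] at h
  all_goals obtain ⟨h1, rfl⟩ := h
  all_goals first | rfl | (split_ifs at h1 <;> omega)

theorem phi_surj (k i : ℤ) (h : i = k - 1 ∨ i = k) (n : ℕ) : ∃ w, phi k w = (i, n) := by
  by_cases hi : i = inS k
  · exact ⟨Sum.inl n, by rw [hi]; rfl⟩
  · refine ⟨Sum.inr n, Prod.ext ?_ rfl⟩
    simp only [phi, inS, outS] at hi ⊢
    split_ifs at hi ⊢ <;> omega

/-- The node maps of one parity class give a bijection. -/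
theorem node_bij (r : ℤ) :
    Function.Bijective (fun p : ℤ × W => phi (2 * p.1 + r) p.2) := by
  constructor
  · rintro ⟨m, w⟩ ⟨m', w'⟩ h
    simp only at h
    have h1 := phi_fst (2 * m + r) w
    have h2 := phi_fst (2 * m' + r) w'
    rw [h] at h1
    have e : m = m' := by omega
    subst e
    rw [phi_inj _ h]
  · rintro ⟨i, n⟩
    obtain ⟨w, hw⟩ := phi_surj (2 * ((i - r + 1) / 2) + r) i (by omega) n
    exact ⟨⟨_, w⟩, hw⟩

/-- The identification of the elements of one parity class of nodes with the ground set. -/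
noncomputable def nodeEquiv (r : ℤ) : ℤ × W ≃ ℤ × ℕ := Equiv.ofBijective _ (node_bij r)

/-- Copies of `M` on the nodes of the parity of `r`. -/
noncomputable def onNodes (M : Matroid W) (r : ℤ) : Matroid (ℤ × ℕ) :=
  (Matroid.sum' fun _ : ℤ => M).mapEquiv (nodeEquiv r)

theorem onNodes_indep (M : Matroid W) (r : ℤ) (S : Set (ℤ × ℕ)) :
    (onNodes M r).Indep S ↔ ∀ m : ℤ, M.Indep (phi (2 * m + r) ⁻¹' S) := by
  rw [onNodes, Matroid.mapEquiv_indep_iff, Matroid.sum'_indep_iff]
  refine forall_congr' (fun m => ?_)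
  rw [Equiv.image_symm_eq_preimage]
  rfl

theorem onNodes_ground (M : Matroid W) (hM : M.E = univ) (r : ℤ) :
    (onNodes M r).E = univ := by
  ext x
  obtain ⟨⟨m, w⟩, rfl⟩ := (node_bij r).2 x
  simp only [mem_univ, iff_true, onNodes, Matroid.mapEquiv_ground_eq, Matroid.sum'_ground_eq]
  refine ⟨(m, w), ?_, rfl⟩
  simp [hM]

/-- A matroid in which every non-base independent set stays independent after any addition. -/
theorem base_of_closure {M : Matroid W} (hE : M.E = univ)
    (hex : ∀ b f e, M.IsBase b → f ∈ b → e ∉ b → M.IsBase (insert e (b \ {f})))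
    (r : ℤ) {J : Set (ℤ × ℕ)} (hJ : (onNodes M r).Indep J) {x : ℤ × ℕ} (hx : x ∉ J)
    (hxJ : x ∈ (onNodes M r).closure J) :
    ∃ m w, phi (2 * m + r) w = x ∧ M.IsBase (phi (2 * m + r) ⁻¹' J) := by
  rw [hJ.mem_closure_iff', onNodes_ground M hE] at hxJ
  have hni : ¬ (onNodes M r).Indep (insert x J) := fun h => hx (hxJ.2 h)
  simp only [onNodes_indep, not_forall] at hni hJ
  obtain ⟨m, hm⟩ := hni
  by_cases hex' : ∃ w, phi (2 * m + r) w = x
  · obtain ⟨w, hw⟩ := hex'
    refine ⟨m, w, hw, ?_⟩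
    obtain ⟨b, hb, hJb⟩ := (hJ m).exists_isBase_superset
    by_contra hnb
    apply hm
    have hpre : phi (2 * m + r) ⁻¹' insert x J = insert w (phi (2 * m + r) ⁻¹' J) := by
      ext v
      simp [← hw, (phi_inj _).eq_iff]
    rw [hpre]
    by_cases hwb : w ∈ b
    · exact hb.indep.subset (insert_subset hwb hJb)
    · obtain ⟨f, hfb, hfJ⟩ : ∃ f ∈ b, f ∉ phi (2 * m + r) ⁻¹' J := by
        by_contra hc
        simp only [not_exists, not_and, not_not] at hc
        exact hnb (hJb.antisymm (fun v hv => hc v hv) ▸ hb)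
      exact (hex b f w hb hfb hwb).indep.subset
        (insert_subset_insert (fun v hv => ⟨hJb hv, fun e => hfJ (e ▸ hv)⟩))
  · refine (hm ?_).elim
    have hpre : phi (2 * m + r) ⁻¹' insert x J = phi (2 * m + r) ⁻¹' J := by
      ext v
      simp only [mem_preimage, mem_insert_iff, or_iff_right_iff_imp]
      exact fun h => (hex' ⟨v, h⟩).elim
    rw [hpre]
    exact hJ m

section NoIntersection

variable (F : Final) (JM JN : Set (ℤ × ℕ))

/-- The elements given to node `k`. -/
def T (k : ℤ) : Set W :=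
  if Even k then (phi k ⁻¹' (JM ∪ JN))ᶜ else phi k ⁻¹' (JM ∪ JN)

/-- Node `k` is on the packing side. -/
def Pk (k : ℤ) : Prop :=
  if Even k then ¬ IsB F.s.G (phi k ⁻¹' JN)ᶜ else IsB F.s.G (phi k ⁻¹' JM)

theorem no_intersection (hd : Disjoint JM JN)
    (hM : (onNodes F.V 1).Indep (JM ∪ JN)) (hN : (onNodes F.V✶ 0).Indep (JM ∪ JN))
    (hcl : (onNodes F.V 1).closure JM ∪ (onNodes F.V✶ 0).closure JN = univ) : False := by
  let G := F.s.G
  have hMo : ∀ k, ¬ Even k → ∃ b, IsB G b ∧ phi k ⁻¹' (JM ∪ JN) ⊆ b := by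
    intro k hk
    obtain ⟨m, rfl⟩ := Int.not_even_iff_odd.1 hk
    exact (onNodes_indep _ _ _).1 hM m
  have hNe : ∀ k, Even k → ∃ b, IsB G b ∧ b ⊆ (phi k ⁻¹' (JM ∪ JN))ᶜ := by
    intro k hk
    obtain ⟨m, rfl⟩ := hk
    have h := (onNodes_indep _ _ _).1 hN m
    rw [Matroid.dual_indep_iff_exists'] at h
    obtain ⟨_, b, hb, hdb⟩ := h
    rw [show m + m = 2 * m + 0 by ring]
    exact ⟨b, hb, fun v hv hv' => hdb.le_bot ⟨hv', hv⟩⟩
  have satM : ∀ k, ¬ Even k → IsB G (phi k ⁻¹' JM) →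
      phi k ⁻¹' (JM ∪ JN) ⊆ phi k ⁻¹' JM := by
    intro k hk hB
    obtain ⟨b, hb, hJb⟩ := hMo k hk
    have e := antichain F.good hB hb ((preimage_mono subset_union_left).trans hJb)
    exact hJb.trans e.ge
  have satN : ∀ k, Even k → IsB G (phi k ⁻¹' JN)ᶜ →
      phi k ⁻¹' (JM ∪ JN) ⊆ phi k ⁻¹' JN := by
    intro k hk hB
    obtain ⟨b, hb, hJb⟩ := hNe k hk
    have e := antichain F.good hb hB
      (hJb.trans (compl_subset_compl.2 (preimage_mono subset_union_right)))
    intro v hv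
    by_contra hv'
    exact (hJb (e ▸ hv' : v ∈ b)) hv
  have hexV : ∀ b f e, F.V.IsBase b → f ∈ b → e ∉ b → F.V.IsBase (insert e (b \ {f})) :=
    fun b f e hb hf he => exchange hb hf he
  have hexN : ∀ b f e, F.V✶.IsBase b → f ∈ b → e ∉ b →
      F.V✶.IsBase (insert e (b \ {f})) := by
    intro b f e hb hf he
    rw [Matroid.dual_isBase_iff'] at hb ⊢
    obtain ⟨hb, -⟩ := hb
    refine ⟨?_, subset_univ _⟩
    change IsB G (univ \ b) at hb
    change IsB G (univ \ _)
    rw [← compl_eq_univ_sdiff] at hb ⊢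
    exact exchange' hb hf he
  -- an element outside `JM ∪ JN` lies at a saturated node
  have outside : ∀ x, x ∉ JM ∪ JN → ∃ k w, phi k w = x ∧
      ((¬ Even k ∧ IsB G (phi k ⁻¹' JM)) ∨ (Even k ∧ IsB G (phi k ⁻¹' JN)ᶜ)) := by
    intro x hx
    have h : x ∈ (onNodes F.V 1).closure JM ∪ (onNodes F.V✶ 0).closure JN := by
      rw [hcl]; exact mem_univ x
    rcases h with h | h
    · obtain ⟨m, w, hw, hB⟩ := base_of_closure (M := F.V) rfl hexV 1
        (hM.subset subset_union_left) (fun h => hx (Or.inl h)) h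
      exact ⟨_, w, hw, Or.inl ⟨by simp, hB⟩⟩
    · obtain ⟨m, w, hw, hB⟩ := base_of_closure (M := F.V✶) rfl hexN 0
        (hN.subset subset_union_right) (fun h => hx (Or.inr h)) h
      rw [Matroid.dual_isBase_iff'] at hB
      obtain ⟨hB, -⟩ := hB
      refine ⟨_, w, hw, Or.inr ⟨by simp, ?_⟩⟩
      rw [compl_eq_univ_sdiff]
      exact hB
  have hTP : ∀ k, Pk F JM JN k → ∃ b, IsB G b ∧ b ⊆ T JM JN k := by
    intro k hk
    simp only [Pk, T] at hk ⊢
    split_ifs at hk ⊢ with he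
    · exact hNe k he
    · exact ⟨_, hk, preimage_mono subset_union_left⟩
  have hTC : ∀ k, ¬ Pk F JM JN k → ∃ b, IsB G b ∧ T JM JN k ⊆ b := by
    intro k hk
    simp only [Pk, T] at hk ⊢
    split_ifs at hk ⊢ with he
    · exact ⟨_, not_not.1 hk, compl_subset_compl.2 (preimage_mono subset_union_right)⟩
    · exact hMo k he
  have memT : ∀ k w, w ∈ T JM JN k ↔ (Even k ↔ phi k w ∉ JM ∪ JN) := by
    intro k w
    simp only [T]
    by_cases he : Even k <;> simp [he] <;> tauto
  -- both nodes at a slab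
  have nbr : ∀ k k' w w', (k' = k + 1 ∨ k = k' + 1) → phi k w = phi k' w' →
      (w ∈ T JM JN k ↔ w' ∉ T JM JN k') := by
    intro k k' w w' hkk he
    have hp : Even k ↔ ¬ Even k' := by
      rcases hkk with rfl | rfl <;> simp [Int.even_add_one]
    rw [memT, memT, he]
    tauto
  have mixed : ∀ k k' w w', (k' = k + 1 ∨ k = k' + 1) → phi k w = phi k' w' →
      Pk F JM JN k → ¬ Pk F JM JN k' → w ∉ T JM JN k := by
    intro k k' w w' hkk he hk hk'
    have hp : Even k ↔ ¬ Even k' := by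
      rcases hkk with rfl | rfl <;> simp [Int.even_add_one]
    rw [memT]
    simp only [Pk] at hk hk'
    by_cases hke : Even k
    · rw [if_pos hke] at hk
      rw [if_neg (hp.1 hke)] at hk'
      intro hcon
      have hx := hcon.1 hke
      obtain ⟨k'', w'', hw'', hsat⟩ := outside _ hx
      have h1 := phi_fst k w
      have h2 := phi_fst k' w'
      have h3 := phi_fst k'' w''
      rw [← he] at h2
      rw [hw''] at h3
      have : k'' = k ∨ k'' = k' := by omega
      rcases this with rfl | rfl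
      · rcases hsat with ⟨h, _⟩ | ⟨_, h⟩
        exacts [h hke, hk h]
      · rcases hsat with ⟨_, h⟩ | ⟨h, _⟩
        exacts [hk' h, (hp.1 hke) h]
    · rw [if_neg hke] at hk
      have hke' : Even k' := by
        by_contra h
        exact hke (hp.2 h)
      rw [if_pos hke', not_not] at hk'
      intro hcon
      have hx : phi k w ∈ JM ∪ JN := by
        by_contra h
        exact hke (hcon.2 h)
      have a : phi k w ∈ JM := satM k hke hk (show w ∈ phi k ⁻¹' (JM ∪ JN) from hx)
      have b : phi k' w' ∈ JN :=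
        satN k' hke' hk' (show w' ∈ phi k' ⁻¹' (JM ∪ JN) by rw [mem_preimage, ← he]; exact hx)
      exact hd.le_bot ⟨a, he ▸ b⟩
  let In : ℤ → Set ℕ := fun k => sI (T JM JN k)
  have slab : ∀ i n, ∃ w w', phi i w = (i, n) ∧ phi (i + 1) w' = (i, n) := by
    intro i n
    obtain ⟨w, hw⟩ := phi_surj i i (Or.inr rfl) n
    obtain ⟨w', hw'⟩ := phi_surj (i + 1) i (Or.inl (by ring)) n
    exact ⟨w, w', hw, hw'⟩
  have mixIn : ∀ k k', (k' = k + 1 ∨ k = k' + 1) → Pk F JM JN k → ¬ Pk F JM JN k' →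
      (inS k = min k k' → In k = ∅) ∧ (inS k' = min k k' → In k' = univ) := by
    intro k k' hkk hk hk'
    constructor
    · intro hin
      refine eq_empty_of_forall_notMem (fun n hn => ?_)
      obtain ⟨w', hw'⟩ := phi_surj k' (min k k') (by omega) n
      have he : phi k (Sum.inl n) = phi k' w' := by rw [hw', ← hin]; rfl
      exact mixed k k' (Sum.inl n) w' hkk he hk hk' hn
    · intro hin
      refine eq_univ_of_forall (fun n => ?_)
      obtain ⟨w, hw⟩ := phi_surj k (min k k') (by omega) n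
      have he : phi k w = phi k' (Sum.inl n) := by rw [hw, ← hin]; rfl
      have h1 := mixed k k' w (Sum.inl n) hkk he hk hk'
      by_contra hn
      exact h1 ((nbr k k' w (Sum.inl n) hkk he).2 hn)
  have e1 : ∀ k, ¬ Pk F JM JN k → In k ≠ univ := by
    intro k hk h
    obtain ⟨b, hb, hsub⟩ := hTC k hk
    exact F.no_full hb (univ_subset_iff.1 (h ▸ (subset_iff_coords.1 hsub).1))
  have e2 : ∀ k, Pk F JM JN k → In k ≠ ∅ := by
    intro k hk h
    obtain ⟨b, hb, hsub⟩ := hTP k hk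
    exact F.no_empty hb (subset_empty_iff.1 (h ▸ (subset_iff_coords.1 hsub).1))
  have step : ∀ i, Pk F JM JN i ↔ Pk F JM JN (i + 1) := by
    intro i
    have hin : inS i = i ∨ inS (i + 1) = i := by
      simp only [inS]; split_ifs <;> omega
    constructor
    · intro hk
      by_contra hk'
      obtain ⟨h1, h2⟩ := mixIn i (i + 1) (Or.inl rfl) hk hk'
      rw [show min i (i + 1) = i by omega] at h1 h2
      rcases hin with h | h
      exacts [e2 _ hk (h1 h), e1 _ hk' (h2 h)]
    · intro hk'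
      by_contra hk
      obtain ⟨h1, h2⟩ := mixIn (i + 1) i (Or.inr rfl) hk' hk
      rw [show min (i + 1) i = i by omega] at h1 h2
      rcases hin with h | h
      exacts [e1 _ hk (h2 h), e2 _ hk' (h1 h)]
  have all : ∀ k, Pk F JM JN k ↔ Pk F JM JN 0 := by
    intro k
    induction k using Int.induction_on with
    | zero => exact Iff.rfl
    | succ n ih => exact (step _).symm.trans ih
    | pred n ih =>
      have h := step (-(n : ℤ) - 1)
      rw [sub_add_cancel] at h
      exact h.trans ih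
  have hflow : ∀ k k', (k' = k + 1 ∨ k = k' + 1) → outS k = inS k' →
      sO (T JM JN k) = (In k')ᶜ := by
    intro k k' hkk h
    ext n
    have he : phi k (Sum.inr n) = phi k' (Sum.inl n) := by
      simp [phi, h]
    exact nbr k k' (Sum.inr n) (Sum.inl n) hkk he
  have hmid : In 1 = (In 0)ᶜ := by
    ext n
    have he : phi 1 (Sum.inl n) = phi 0 (Sum.inl n) := by simp [phi, inS]
    exact nbr 1 0 (Sum.inl n) (Sum.inl n) (Or.inr rfl) he
  let R : ℕ → ℤ := fun n => (n : ℤ) + 1
  let L : ℕ → ℤ := fun n => -(n : ℤ)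
  have hR : ∀ n, sO (T JM JN (R n)) = (In (R (n + 1)))ᶜ := fun n =>
    hflow _ _ (Or.inl (by simp [R])) (by simp only [R, inS, outS]; push_cast; split_ifs <;> omega)
  have hL : ∀ n, sO (T JM JN (L n)) = (In (L (n + 1)))ᶜ := fun n =>
    hflow _ _ (Or.inr (by simp [L])) (by simp only [L, inS, outS]; push_cast; split_ifs <;> omega)
  by_cases h0 : Pk F JM JN 0
  · have arm : ∀ A : ℕ → ℤ, (∀ n, sO (T JM JN (A n)) = (In (A (n + 1)))ᶜ) →
        ¬ High F.s (In (A 0))ᶜ := by
      intro A hA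
      refine F.no_pack (fun n => In (A n)) (fun n => ?_)
      obtain ⟨b, hb, hsub⟩ := hTP _ ((all (A n)).2 h0)
      obtain ⟨s1, s2⟩ := subset_iff_coords.1 hsub
      exact ⟨b, hb, s1, hA n ▸ s2⟩
    have a := arm R hR
    have b := arm L hL
    rcases F.total (In 0)ᶜ with h | h
    · exact b (by simpa [L] using h)
    · exact a (by simpa [R, hmid] using h)
  · have arm : ∀ A : ℕ → ℤ, (∀ n, sO (T JM JN (A n)) = (In (A (n + 1)))ᶜ) →
        ¬ High F.s (In (A 0)) := by
      intro A hA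
      refine F.no_cover (fun n => In (A n)) (fun n => ?_)
      obtain ⟨b, hb, hsub⟩ := hTC _ (fun h => h0 ((all (A n)).1 h))
      obtain ⟨s1, s2⟩ := subset_iff_coords.1 hsub
      exact ⟨b, hb, s1, hA n ▸ s2⟩
    have a := arm R hR
    have b := arm L hL
    rcases F.total (In 0) with h | h
    · exact b (by simpa [L] using h)
    · exact a (by simpa [R, hmid] using h)

end NoIntersection

end Vale.Agent.P068
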