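import Mathlib

/-!
A sparse ideal on the natural numbers.
-/

namespace Vale.Agent.P068

open Set

/-- The dyadic block `[2^j, 2^(j+1))`. -/
def blk (j : ℕ) : Set ℕ := Set.Ico (2 ^ j) (2 ^ (j + 1))

/-- Sets meeting all dyadic blocks in boundedly many points. -/
def Sp (A : Set ℕ) : Prop := ∃ k, ∀ j, (A ∩ blk j).ncard ≤ k

theorem blk_finite (j : ℕ) : (blk j).Finite := Set.finite_Ico _ _

theorem sp_mono {A B : Set ℕ} (h : A ⊆ B) (hB : Sp B) : Sp A := by
  obtain ⟨k, hk⟩ := hB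
  exact ⟨k, fun j => (ncard_le_ncard (inter_subset_inter_left _ h)
    ((blk_finite j).inter_of_right _)).trans (hk j)⟩

theorem sp_union {A B : Set ℕ} (hA : Sp A) (hB : Sp B) : Sp (A ∪ B) := by
  obtain ⟨k, hk⟩ := hA
  obtain ⟨l, hl⟩ := hB
  refine ⟨k + l, fun j => ?_⟩
  rw [union_inter_distrib_right]
  exact (ncard_union_le _ _).trans (Nat.add_le_add (hk j) (hl j))

theorem sp_empty : Sp ∅ := ⟨0, fun j => by simp⟩

theorem sp_of_finite {A : Set ℕ} (h : A.Finite) : Sp A :=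
  ⟨A.ncard, fun _ => ncard_le_ncard inter_subset_left h⟩

theorem sp_of_subset_union {A B C : Set ℕ} (h : A ⊆ B ∪ C) (hB : Sp B) (hC : Sp C) : Sp A :=
  sp_mono h (sp_union hB hC)

theorem not_sp_univ : ¬ Sp (univ : Set ℕ) := by
  rintro ⟨k, hk⟩
  have h := hk k
  have hc : ((univ : Set ℕ) ∩ blk k).ncard = 2 ^ k := by
    rw [univ_inter, blk, ← Finset.coe_Ico, ncard_coe_finset, Nat.card_Ico, pow_succ]
    omega
  rw [hc] at h
  exact absurd h (not_le.2 (Nat.lt_two_pow_self))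

theorem infinite_of_not_sp {A : Set ℕ} (h : ¬ Sp A) : A.Infinite := fun hf => h (sp_of_finite hf)

end Vale.Agent.P068
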