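import Mathlib

/-!
A packing/covering partition of `(M, N✶)` gives an intersection solution for `(M, N)`.
-/

namespace Vale.Agent.P068

open Set
open scoped Matroid

theorem intersection_of_packing_covering {α : Type*} {M N : Matroid α} (hM : M.E = univ)
    (hN : N.E = univ) {P C S₁ S₂ I₁ I₂ : Set α} (hPC : Disjoint P C) (hu : P ∪ C = univ)
    (hS₁ : S₁ ⊆ P) (hS₂ : S₂ ⊆ P) (hS : Disjoint S₁ S₂)
    (h₁ : (M ↾ P).closure S₁ = P) (h₂ : (N✶ ↾ P).closure S₂ = P)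
    (hI₁ : ((M✶ ↾ C)✶).Indep I₁) (hI₂ : ((N✶✶ ↾ C)✶).Indep I₂) (hI : I₁ ∪ I₂ = C) :
    ∃ J₁ J₂ : Set α, Disjoint J₁ J₂ ∧ M.Indep (J₁ ∪ J₂) ∧ N.Indep (J₁ ∪ J₂) ∧
      M.closure J₁ ∪ N.closure J₂ = univ := by
  have hC : C = univ \ P := by
    ext x
    exact ⟨fun hx => ⟨mem_univ x, fun hxP => hPC.le_bot ⟨hxP, hx⟩⟩,
      fun hx => (hu.symm ▸ mem_univ x : x ∈ P ∪ C).resolve_left hx.2⟩
  have hP : P = univ \ C := by
    rw [hC, sdiff_sdiff_cancel_left (subset_univ _)]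
  have hs₁ : (M ↾ P).Spanning S₁ := by
    rw [Matroid.spanning_iff_closure_eq (show S₁ ⊆ (M ↾ P).E from hS₁)]; exact h₁
  have hs₂ : (N✶ ↾ P).Spanning S₂ := by
    rw [Matroid.spanning_iff_closure_eq (show S₂ ⊆ (N✶ ↾ P).E from hS₂)]; exact h₂
  obtain ⟨B₁, hB₁, hB₁S⟩ := hs₁.exists_isBase_subset
  obtain ⟨B₂, hB₂, hB₂S⟩ := hs₂.exists_isBase_subset
  have hb₁ : M.IsBasis B₁ P := by
    rwa [Matroid.isBase_restrict_iff (hM ▸ subset_univ P)] at hB₁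
  rw [Matroid.dual_dual, Matroid.dual_indep_iff_exists'] at hI₂
  obtain ⟨hI₂C, K, hK, hKd⟩ := hI₂
  rw [Matroid.isBase_restrict_iff (hN ▸ subset_univ C)] at hK
  have hKI : K ⊆ I₁ := fun x hx =>
    (hI.symm ▸ hK.subset hx : x ∈ I₁ ∪ I₂).resolve_right (fun h => hKd.le_bot ⟨h, hx⟩)
  have hcM : (M✶ ↾ C)✶ = M ／ P := by
    rw [← Matroid.dual_delete_dual, Matroid.delete_eq_restrict, Matroid.dual_ground, hM, ← hC]
  have hcN : (N✶ ↾ P)✶ = N ／ C := by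
    rw [← Matroid.dual_delete_dual, Matroid.delete_eq_restrict, Matroid.dual_ground, hN, ← hP]
  have hM' : M.Indep (B₁ ∪ K) := by
    rw [hcM] at hI₁
    have h := (hb₁.contract_indep_iff.1 (hI₁.subset hKI)).1
    rwa [union_comm] at h
  have hN' : N.Indep (B₁ ∪ K) := by
    have h : ((N✶ ↾ P)✶).Indep B₁ := by
      rw [Matroid.dual_indep_iff_exists']
      exact ⟨hB₁S.trans hS₁, B₂, hB₂, hS.mono hB₁S hB₂S⟩
    rw [hcN] at h
    exact (hK.contract_indep_iff.1 h).1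
  refine ⟨B₁, K, (hPC.mono hb₁.subset hK.subset), hM', hN', ?_⟩
  refine eq_univ_of_forall (fun x => ?_)
  rcases (hu.symm ▸ mem_univ x : x ∈ P ∪ C) with h | h
  · exact Or.inl (hb₁.subset_closure h)
  · exact Or.inr (hK.subset_closure h)

end Vale.Agent.P068
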