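import Vale.Agent.P068.Category

/-!
States of the recursion: high generators with ranks, and base generators.
-/

namespace Vale.Agent.P068

open Set

abbrev W := ℕ ⊕ ℕ

/-- Inflow coordinates of a subset of `W`. -/
def sI (b : Set W) : Set ℕ := Sum.inl ⁻¹' b

/-- Outflow coordinates of a subset of `W`. -/
def sO (b : Set W) : Set ℕ := Sum.inr ⁻¹' b

/-- The subset of `W` with given coordinates. -/
def mk2 (x y : Set ℕ) : Set W := Sum.inl '' x ∪ Sum.inr '' y

@[simp] theorem sI_mk2 (x y : Set ℕ) : sI (mk2 x y) = x := by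
  ext n; simp [sI, mk2]

@[simp] theorem sO_mk2 (x y : Set ℕ) : sO (mk2 x y) = y := by
  ext n; simp [sO, mk2]

@[simp] theorem sI_compl (b : Set W) : sI bᶜ = (sI b)ᶜ := rfl
@[simp] theorem sO_compl (b : Set W) : sO bᶜ = (sO b)ᶜ := rfl

theorem subset_iff_coords {a b : Set W} : a ⊆ b ↔ sI a ⊆ sI b ∧ sO a ⊆ sO b := by
  constructor
  · exact fun h => ⟨preimage_mono h, preimage_mono h⟩
  · rintro ⟨h1, h2⟩ (n | n) hn
    · exact h1 hn
    · exact h2 hn

theorem finite_iff_coords {a : Set W} : a.Finite ↔ (sI a).Finite ∧ (sO a).Finite := by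
  constructor
  · exact fun h => ⟨h.preimage Sum.inl_injective.injOn, h.preimage Sum.inr_injective.injOn⟩
  · rintro ⟨h1, h2⟩
    refine ((h1.image Sum.inl).union (h2.image Sum.inr)).subset ?_
    rintro (n | n) hn
    · exact Or.inl ⟨n, hn, rfl⟩
    · exact Or.inr ⟨n, hn, rfl⟩

/-- `b` and `g` differ by finitely many elements, equally many on both sides. -/
def Bal (b g : Set W) : Prop :=
  (b \ g).Finite ∧ (g \ b).Finite ∧ (b \ g).ncard = (g \ b).ncard

/-- The bases generated by `G`. -/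
def IsB (G : Set (Set W)) (b : Set W) : Prop := ∃ g ∈ G, Bal b g

theorem bal_refl (b : Set W) : Bal b b := by simp [Bal]

theorem bal_compl {b g : Set W} (h : Bal b g) : Bal bᶜ gᶜ := by
  obtain ⟨h1, h2, h3⟩ := h
  simp only [Bal, compl_sdiff_compl]
  exact ⟨h2, h1, h3.symm⟩

/-- A state: high generators with their ranks, and base generators. -/
structure St where
  hi : Set (Set ℕ × Ordinal.{0})
  G : Set (Set W)

/-- `x` contains some high generator up to a sparse set. -/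
def High (s : St) (x : Set ℕ) : Prop := ∃ p ∈ s.hi, Sp (p.1 \ x)

/-- `S` is high and `J` has a high generator of smaller rank than all those of `S`. -/
def AdmH (s : St) (S J : Set ℕ) : Prop :=
  High s S ∧ ∃ p ∈ s.hi, Sp (p.1 \ J) ∧ ∀ q ∈ s.hi, Sp (q.1 \ S) → p.2 < q.2

/-- A generator is admissible: both ends lie on the same side, with descending rank. -/
def Adm (s : St) (b : Set W) : Prop :=
  AdmH s (sI b) (sO b)ᶜ ∨ AdmH s (sI b)ᶜ (sO b)

/-- The properties of the final state. -/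
structure Good (s : St) : Prop where
  seed : (univ, 0) ∈ s.hi
  cons : ∀ p ∈ s.hi, ∀ q ∈ s.hi, ¬ Sp (p.1 ∩ q.1)
  anti : ∀ g ∈ s.G, ∀ g' ∈ s.G, (g \ g').Finite → g = g'
  adm : ∀ g ∈ s.G, Adm s g

/-- The invariant of the recursion. -/
structure Inv (k : Cardinal.{0}) (s : St) : Prop extends Good s where
  inf : Cardinal.aleph0 ≤ k
  lt : k < Cardinal.continuum
  ctbHi : Tiny k s.hi
  ctbG : Tiny k s.G

/-- `t` end-extends `s`: new generators get larger ranks. -/
def Ext (s t : St) : Prop :=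
  s.hi ⊆ t.hi ∧ s.G ⊆ t.G ∧ ∀ q ∈ t.hi, q ∉ s.hi → ∀ p ∈ s.hi, p.2 < q.2

theorem ext_refl (s : St) : Ext s s := ⟨subset_rfl, subset_rfl, fun _ h h' => (h' h).elim⟩

theorem ext_trans {s t u : St} (h : Ext s t) (h' : Ext t u) : Ext s u := by
  refine ⟨h.1.trans h'.1, h.2.1.trans h'.2.1, fun q hq hqs p hp => ?_⟩
  by_cases hqt : q ∈ t.hi
  · exact h.2.2 q hqt hqs p hp
  · exact h'.2.2 q hq hqt p (h.1 hp)

theorem high_ext {s t : St} {x : Set ℕ} (h : Ext s t) (hx : High s x) : High t x := by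
  obtain ⟨p, hp, hp'⟩ := hx
  exact ⟨p, h.1 hp, hp'⟩

theorem admH_ext {s t : St} {S J : Set ℕ} (h : Ext s t) (ha : AdmH s S J) : AdmH t S J := by
  obtain ⟨hS, p, hp, hp', hq⟩ := ha
  refine ⟨high_ext h hS, p, h.1 hp, hp', fun q hqt hqS => ?_⟩
  by_cases hqs : q ∈ s.hi
  · exact hq q hqs hqS
  · exact h.2.2 q hqt hqs p hp

theorem adm_ext {s t : St} {b : Set W} (h : Ext s t) (ha : Adm s b) : Adm t b :=
  ha.imp (admH_ext h) (admH_ext h)

theorem high_mono {s : St} {x y : Set ℕ} (h : Sp (x \ y)) (hx : High s x) : High s y := by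
  obtain ⟨p, hp, hp'⟩ := hx
  refine ⟨p, hp, sp_of_subset_union ?_ hp' h⟩
  intro n hn
  by_cases hnx : n ∈ x
  · exact Or.inr ⟨hnx, hn.2⟩
  · exact Or.inl ⟨hn.1, hnx⟩

theorem high_of_subset {s : St} {x y : Set ℕ} (h : x ⊆ y) (hx : High s x) : High s y :=
  high_mono (by rw [sdiff_eq_empty.2 h]; exact sp_empty) hx

theorem high_univ {s : St} (hs : Good s) : High s univ :=
  ⟨_, hs.seed, by simp [sp_empty]⟩

theorem not_high_and_compl {s : St} (hs : Good s) {x : Set ℕ} (h : High s x) :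
    ¬ High s xᶜ := by
  rintro ⟨q, hq, hq'⟩
  obtain ⟨p, hp, hp'⟩ := h
  refine hs.cons p hp q hq (sp_of_subset_union ?_ hp' hq')
  intro n hn
  by_cases hnx : n ∈ x
  · exact Or.inr ⟨hn.2, not_not_intro hnx⟩
  · exact Or.inl ⟨hn.1, hnx⟩

theorem not_high_empty {s : St} (hs : Good s) : ¬ High s ∅ := by
  have h := not_high_and_compl hs (high_univ hs)
  rwa [compl_univ] at h

theorem admH_congr {s : St} {S S' J J' : Set ℕ} (hS : Sp (S \ S')) (hS' : Sp (S' \ S))
    (hJ : Sp (J \ J')) (ha : AdmH s S J) : AdmH s S' J' := by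
  obtain ⟨hH, p, hp, hp', hq⟩ := ha
  refine ⟨high_mono hS hH, p, hp, sp_of_subset_union ?_ hp' hJ, fun q hq1 hq2 => hq q hq1 ?_⟩
  · intro n hn
    by_cases hnx : n ∈ J
    · exact Or.inr ⟨hnx, hn.2⟩
    · exact Or.inl ⟨hn.1, hnx⟩
  · refine sp_of_subset_union ?_ hq2 hS'
    intro n hn
    by_cases hnx : n ∈ S'
    · exact Or.inr ⟨hnx, hn.2⟩
    · exact Or.inl ⟨hn.1, hnx⟩

theorem adm_bal {s : St} {b g : Set W} (h : Bal b g) (ha : Adm s g) : Adm s b := by
  obtain ⟨h1, h2⟩ := finite_iff_coords.1 h.1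
  obtain ⟨h3, h4⟩ := finite_iff_coords.1 h.2.1
  have e1 : Sp (sI g \ sI b) := sp_of_finite h3
  have e2 : Sp (sI b \ sI g) := sp_of_finite h1
  refine ha.imp (fun a => admH_congr e1 e2 ?_ a) (fun a => admH_congr ?_ ?_ ?_ a)
  · rw [compl_sdiff_compl]; exact sp_of_finite h2
  · rw [compl_sdiff_compl]; exact e2
  · rw [compl_sdiff_compl]; exact e1
  · exact sp_of_finite h4

theorem adm_of_isB {s : St} (hs : Good s) {b : Set W} (h : IsB s.G b) : Adm s b := by
  obtain ⟨g, hg, hb⟩ := h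
  exact adm_bal hb (hs.adm g hg)

end Vale.Agent.P068
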