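import Mathlib

/-!
Packing/covering for families in which all members but one are uniform.
-/

namespace Vale.Agent.P068

open Set
open scoped Matroid

theorem packing_covering_uniform_family {α : Type*} {Θ : Type*} (E : Set α) (M : Θ → Matroid α)
    (hE : ∀ i, (M i).E = E)
    (hu : ∀ i j, i ≠ j → (∀ X ⊆ E, (M i).Indep X ∨ (M i).Spanning X) ∨
      (∀ X ⊆ E, (M j).Indep X ∨ (M j).Spanning X)) :
    ∃ (P C : Set α) (S I : Θ → Set α), Disjoint P C ∧ P ∪ C = E ∧ (∀ i, S i ⊆ P) ∧
      Pairwise (Function.onFun Disjoint S) ∧ (∀ i, (M i ↾ P).closure (S i) = P) ∧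
      (∀ i, (((M i)✶ ↾ C)✶).Indep (I i)) ∧ (⋃ i, I i) = C := by
  classical
  have pack : ∀ S : Θ → Set α, (∀ i, (M i).IsBase (S i)) →
      Pairwise (Function.onFun Disjoint S) →
      ∃ (P C : Set α) (S I : Θ → Set α), Disjoint P C ∧ P ∪ C = E ∧ (∀ i, S i ⊆ P) ∧
      Pairwise (Function.onFun Disjoint S) ∧ (∀ i, (M i ↾ P).closure (S i) = P) ∧
      (∀ i, (((M i)✶ ↾ C)✶).Indep (I i)) ∧ (⋃ i, I i) = C := by
    intro S hS hd
    refine ⟨E, ∅, S, fun _ => ∅, disjoint_empty _, union_empty E, fun i => ?_, hd, fun i => ?_,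
      fun i => Matroid.empty_indep _, iUnion_empty⟩
    · exact hE i ▸ (hS i).subset_ground
    · rw [← hE i, Matroid.restrict_ground_eq_self]
      exact (hS i).closure_eq
  have cover : ∀ I : Θ → Set α, (∀ i, (M i).Indep (I i)) → E ⊆ ⋃ i, I i →
      ∃ (P C : Set α) (S I : Θ → Set α), Disjoint P C ∧ P ∪ C = E ∧ (∀ i, S i ⊆ P) ∧
      Pairwise (Function.onFun Disjoint S) ∧ (∀ i, (M i ↾ P).closure (S i) = P) ∧
      (∀ i, (((M i)✶ ↾ C)✶).Indep (I i)) ∧ (⋃ i, I i) = C := by
    intro I hI hcov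
    refine ⟨∅, E, fun _ => ∅, I, empty_disjoint _, empty_union E, fun _ => subset_rfl,
      fun i j _ => disjoint_empty _, fun i => ?_, fun i => ?_, ?_⟩
    · refine subset_empty_iff.1 ?_
      exact Matroid.closure_subset_ground _ _
    · rw [← hE i, ← Matroid.dual_ground, Matroid.restrict_ground_eq_self, Matroid.dual_dual]
      exact hI i
    · exact (iUnion_subset fun i => hE i ▸ (hI i).subset_ground).antisymm hcov
  rcases isEmpty_or_nonempty Θ with hΘ | hΘ
  · exact pack (fun _ => ∅) (fun i => (IsEmpty.false i).elim) (fun i => (IsEmpty.false i).elim)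
  obtain ⟨i₀, hi₀⟩ : ∃ i₀, ∀ i, i ≠ i₀ → ∀ X ⊆ E, (M i).Indep X ∨ (M i).Spanning X := by
    by_cases h : ∃ i, ¬ ∀ X ⊆ E, (M i).Indep X ∨ (M i).Spanning X
    · obtain ⟨i₀, h₀⟩ := h
      exact ⟨i₀, fun i hi => (hu i i₀ hi).resolve_right h₀⟩
    · exact ⟨Classical.arbitrary Θ, fun i _ => not_not.1 fun hc => h ⟨i, hc⟩⟩
  obtain ⟨B, hB⟩ := (M i₀).exists_isBase
  let r : Θ → Θ → Prop := WellOrderingRel
  have wf : WellFounded r := WellOrderingRel.isWellOrder.wf
  let S' : Θ → Set α := wf.fix fun i prev =>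
    if h : i ≠ i₀ ∧ ∃ b, (M i).IsBase b ∧ b ⊆ (E \ B) \ ⋃ (j) (hj : r j i), prev j hj
    then h.2.choose else ∅
  let R : Θ → Set α := fun i => (E \ B) \ ⋃ (j) (_ : r j i), S' j
  have hS' : ∀ i, S' i = if h : i ≠ i₀ ∧ ∃ b, (M i).IsBase b ∧ b ⊆ R i then h.2.choose else ∅ :=
    fun i => WellFounded.fix_eq _ _ i
  have hsub : ∀ i, S' i ⊆ R i := by
    intro i
    rw [hS' i]
    split_ifs with h
    · exact h.2.choose_spec.2
    · exact empty_subset _
  have hdis : Pairwise (Function.onFun Disjoint S') := by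
    have key : ∀ i j, r j i → Disjoint (S' j) (S' i) := fun i j hji =>
      disjoint_left.2 fun x hxj hxi => (hsub i hxi).2 (mem_biUnion (s := {k | r k i}) hji hxj)
    intro i j hij
    rcases trichotomous_of r i j with h | h | h
    exacts [key j i h, (hij h).elim, (key i j h).symm]
  have hS0 : S' i₀ = ∅ := by
    rw [hS' i₀]
    exact dif_neg fun h => h.1 rfl
  by_cases hall : ∀ i, i ≠ i₀ → ∃ b, (M i).IsBase b ∧ b ⊆ R i
  · refine pack (fun i => if i = i₀ then B else S' i) (fun i => ?_) (fun i j hij => ?_)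
    · by_cases h : i = i₀
      · rw [if_pos h]; exact h ▸ hB
      · rw [if_neg h, hS' i, dif_pos ⟨h, hall i h⟩]
        exact (hall i h).choose_spec.1
    · have hBd : ∀ k, Disjoint B (S' k) := fun k =>
        disjoint_left.2 fun x hx hx' => (hsub k hx').1.2 hx
      change Disjoint (if i = i₀ then B else S' i) (if j = i₀ then B else S' j)
      by_cases hi : i = i₀
      · rw [if_pos hi, if_neg (fun hj => hij (hi.trans hj.symm))]; exact hBd j
      · rw [if_neg hi]
        by_cases hj : j = i₀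
        · rw [if_pos hj]; exact (hBd i).symm
        · rw [if_neg hj]; exact hdis hij
  · simp only [not_forall] at hall
    obtain ⟨k, hk, hkmin⟩ := wf.has_min {i | i ≠ i₀ ∧ ¬ ∃ b, (M i).IsBase b ∧ b ⊆ R i}
      (by obtain ⟨i, h1, h2⟩ := hall; exact ⟨i, h1, h2⟩)
    have hRk : (M k).Indep (R k) := by
      refine (hi₀ k hk.1 (R k) (sdiff_subset.trans sdiff_subset)).resolve_right fun h => hk.2 ?_
      exact h.exists_isBase_subset
    refine cover (fun i => if i = i₀ then B else if i = k then R k else S' i) (fun i => ?_) ?_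
    · split_ifs with h h'
      · exact h ▸ hB.indep
      · exact h' ▸ hRk
      · rw [hS' i]
        split_ifs with h''
        · exact h''.2.choose_spec.1.indep
        · exact Matroid.empty_indep _
    · intro x hx
      by_cases hxB : x ∈ B
      · exact mem_iUnion.2 ⟨i₀, by rw [if_pos rfl]; exact hxB⟩
      by_cases hxk : x ∈ R k
      · exact mem_iUnion.2 ⟨k, by rw [if_neg hk.1, if_pos rfl]; exact hxk⟩
      · have h : x ∈ ⋃ (j) (_ : r j k), S' j := not_not.1 fun h => hxk ⟨⟨hx, hxB⟩, h⟩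
        obtain ⟨j, hj, hxj⟩ := mem_iUnion₂.1 h
        have hj0 : j ≠ i₀ := fun h => by
          rw [h, hS0] at hxj
          exact hxj
        have hjk : j ≠ k := fun h => irrefl_of r k (h ▸ hj)
        exact mem_iUnion.2 ⟨j, by rw [if_neg hj0, if_neg hjk]; exact hxj⟩

end Vale.Agent.P068
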